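import Vale.Agent.P232.Phase1.Spec
import Vale.Agent.P232.SlicingGlue
import Vale.Agent.P232.BandFree.Candidate
import Vale.Agent.P232.Mirror

/-!
# P232 phase 1: choice of the direction and assembly of the cases

The direction maximises the top area; if the bottom area is at most `1/π` a band is at least as
long as the band-free bound asks, so the band-free theorem applies; otherwise the patch or the
cover applies. Volumes `≥ 37/50` follow by passing to the complement.
-/

open MeasureTheory Set Filter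
open scoped Real Topology

noncomputable section

namespace Vale.Agent.P232.Phase1

/-- A slice is either band-free, or it is a band and has length at least `1`. -/
theorem master_or {s : Slice} {l : ℝ} (h : s.Master l) :
    Real.sqrt (π * min s.A (1 - s.A)) ≤ l ∨ 1 ≤ l := by
  rcases s.w_nonneg.eq_or_lt with hw | hw <;> rcases s.u_nonneg.eq_or_lt with hu | hu
  · exact Or.inl (Slice.nonband_le h (Or.inl ⟨hw.symm, hu.symm⟩))
  · have hX : s.X = 1 := by
      by_contra hne
      exact hu.ne' (s.u_eq (lt_of_le_of_ne s.X_le hne))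
    refine Or.inr (le_trans ?_ (Slice.chord_le h))
    rw [hX, ← hw, sub_zero]
    exact Real.le_sqrt_of_sq_le (by nlinarith [sq_nonneg (s.Y - s.u)])
  · refine Or.inr (le_trans ?_ (Slice.chord_le h))
    rw [s.Y_eq hw, ← hu, sub_zero]
    exact Real.le_sqrt_of_sq_le (by nlinarith [sq_nonneg (s.X - s.w)])
  · exact Or.inl (Slice.nonband_le h (Or.inr ⟨hw, hu⟩))

/-- Area of the top slice. -/
def endTop (D : Set R3) (i j : Fin 3) : ℝ := sInf (sliceArea D i j '' Ioo 0 1)

/-- Area of the bottom slice. -/
def endBot (D : Set R3) (i j : Fin 3) : ℝ := sSup (sliceArea D i j '' Ioo 0 1)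

section

variable {D : Set R3} {i j : Fin 3} (hdown : ∀ x ∈ D, ∀ y ∈ box, y ≤ x → y ∈ D)
include hdown

theorem bdd_area : BddBelow (sliceArea D i j '' Ioo 0 1) ∧ BddAbove (sliceArea D i j '' Ioo 0 1) :=
  ⟨⟨0, by rintro _ ⟨z, -, rfl⟩; exact (sliceArea_mem hdown z).1⟩,
    ⟨1, by rintro _ ⟨z, -, rfl⟩; exact (sliceArea_mem hdown z).2⟩⟩

theorem sliceArea_mem_ends {z : ℝ} (hz : z ∈ Ioo (0 : ℝ) 1) :
    sliceArea D i j z ∈ Icc (endTop D i j) (endBot D i j) :=
  ⟨csInf_le (bdd_area hdown).1 (mem_image_of_mem _ hz),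
    le_csSup (bdd_area hdown).2 (mem_image_of_mem _ hz)⟩

theorem tendsto_ends :
    Tendsto (sliceArea D i j) (𝓝[<] 1) (𝓝 (endTop D i j)) ∧
      Tendsto (sliceArea D i j) (𝓝[>] 0) (𝓝 (endBot D i j)) :=
  ⟨((antitone_sliceArea hdown).antitoneOn _).tendsto_nhdsWithin_Ioo_left
      (nonempty_Ioo.2 zero_lt_one) (bdd_area hdown).1,
    ((antitone_sliceArea hdown).antitoneOn _).tendsto_nhdsWithin_Ioo_right
      (nonempty_Ioo.2 zero_lt_one) (bdd_area hdown).2⟩

theorem endTop_nonneg : 0 ≤ endTop D i j :=
  le_csInf ((nonempty_Ioo.2 zero_lt_one).image _)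
    (by rintro _ ⟨z, -, rfl⟩; exact (sliceArea_mem hdown z).1)

theorem endBot_le_one : endBot D i j ≤ 1 :=
  csSup_le ((nonempty_Ioo.2 zero_lt_one).image _)
    (by rintro _ ⟨z, -, rfl⟩; exact (sliceArea_mem hdown z).2)

theorem ends_volume (hsub : D ⊆ box) (hm : MeasurableSet D) (hij : i ≠ j) :
    endTop D i j ≤ boxVolume D ∧ boxVolume D ≤ endBot D i j := by
  rw [boxVolume_eq hdown hsub hm hij]
  have hi : IntervalIntegrable (sliceArea D i j) volume 0 1 :=
    (antitone_sliceArea hdown).intervalIntegrable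
  constructor
  · simpa using intervalIntegral.integral_mono_on_of_le_Ioo zero_le_one intervalIntegrable_const hi
      fun z hz => (sliceArea_mem_ends hdown hz).1
  · simpa using intervalIntegral.integral_mono_on_of_le_Ioo zero_le_one hi intervalIntegrable_const
      fun z hz => (sliceArea_mem_ends hdown hz).2

end

/-- Case A: all slices at most `1/π`. -/
theorem caseA {D : Set R3} {M : ℝ} (h : IsReduced D M) {i j : Fin 3} (hij : i ≠ j)
    (hb : endBot D i j ≤ 1 / π) : candidate (boxVolume D) ≤ 2 * M := by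
  have hdown := h.down
  have hA := antitone_sliceArea (i := i) (j := j) hdown
  rw [boxVolume_eq hdown h.subset h.measurable hij]
  refine BandFree.bandFreeReal _ M (hA.antitoneOn _) (fun z _ => sliceArea_mem hdown z) ?_
  intro c s hc hs hc0 hs0 hcs z₀ hz₀ z₁ hz₁ hz
  obtain ⟨hint, hle⟩ := slicing D M h i j hij c s hc hs hc0 hs0 hcs z₀ hz₀ z₁ hz₁ hz
  refine le_trans (add_le_add_left ?_ _) hle
  refine intervalIntegral.integral_mono_on_of_le_Ioo zero_le_one ?_ hint fun z hz' =>
    mul_le_mul_of_nonneg_left ?_ (hc0 _)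
  · refine BandFree.integrable_comp (hA.antitoneOn _)
      (φ := fun x => c x * Real.sqrt (π * min x (1 - x))) (by fun_prop) (M := Real.sqrt π)
      fun z _ => ?_
    have hm := sliceArea_mem (i := i) (j := j) hdown z
    rw [Real.norm_eq_abs, abs_of_nonneg (mul_nonneg (hc0 _) (Real.sqrt_nonneg _))]
    have hc1 : c (sliceArea D i j z) ≤ 1 := by
      nlinarith [hcs (sliceArea D i j z), sq_nonneg (s (sliceArea D i j z))]
    exact (mul_le_of_le_one_left (Real.sqrt_nonneg _) hc1).trans (Real.sqrt_le_sqrt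
      (mul_le_of_le_one_right Real.pi_pos.le ((min_le_left _ _).trans hm.2)))
  · have hf := isHeight_of_antitone (antitone_heightExt (i := i) (j := j) hdown z)
      (heightExt_mem D i j z)
    have hM := hf.master (lenGe_len (antitone_heightExt hdown z) (heightExt_mem D i j z))
    have hAb := (sliceArea_mem_ends hdown hz').2.trans hb
    rcases master_or hM with h1 | h1
    · exact h1
    · refine le_trans (Real.sqrt_le_one.2 ?_) h1
      calc π * min (sliceArea D i j z) (1 - sliceArea D i j z) ≤ π * (1 / π) :=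
            mul_le_mul_of_nonneg_left ((min_le_left _ _).trans hAb) Real.pi_pos.le
        _ = 1 := mul_one_div_cancel Real.pi_pos.ne'

theorem bound_low (hT : T1Spec) (hP : PatchSpec) (hC : CoverSpec) {V : ℝ} (h0 : 0 < V)
    (h1 : V ≤ 13 / 50) : ReducedBoundAt V := by
  intro D M h hV
  subst hV
  obtain ⟨⟨i, j⟩, hmem, hmax⟩ :=
    (Finset.univ.filter fun q : Fin 3 × Fin 3 => q.1 ≠ q.2).exists_max_image
      (fun q => endTop D q.1 q.2) ⟨(0, 1), by simp⟩
  have hij : i ≠ j := (Finset.mem_filter.1 hmem).2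
  obtain ⟨k, hki, hkj, hall⟩ := exists_third hij
  rcases le_or_gt (endBot D i j) (1 / π) with hb | hb
  · exact caseA h hij hb
  have hset : Setting (endTop D i j) (endBot D i j) (boxVolume D) M :=
    ⟨endTop_nonneg h.down, (ends_volume h.down h.subset h.measurable hij).1,
      (ends_volume h.down h.subset h.measurable hij).2, endBot_le_one h.down,
      hT D M h i j k hij hki hkj hall _ _ _ _ (tendsto_ends h.down).1 (tendsto_ends h.down).2
        (tendsto_ends h.down).1 (tendsto_ends h.down).1
        (hmax (k, j) (by simp [hkj])) (hmax (k, i) (by simp [hki]))⟩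
  rcases le_or_gt (1 / 250) (endTop D i j) with ha | ha
  · exact hC _ _ _ _ hset h0 h1 hb.le (Or.inl ha)
  rcases le_or_gt (1 / 2) (endBot D i j) with hb2 | hb2
  · exact hC _ _ _ _ hset h0 h1 hb.le (Or.inr (Or.inl hb2))
  rcases le_or_gt (17 / 100) (boxVolume D) with hv | hv
  · exact hC _ _ _ _ hset h0 h1 hb.le (Or.inr (Or.inr hv))
  exact hP _ _ _ _ hset h0 hv.le ha.le hb.le hb2.le

/-- Phase 1 from its three pieces. -/
theorem bound_of (hT : T1Spec) (hP : PatchSpec) (hC : CoverSpec) : BoundSpec := by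
  intro V h0 h1 hV
  rcases hV with hV | hV
  · exact bound_low hT hP hC h0 hV
  intro D M h hVD
  obtain ⟨hr, hv⟩ := h.mirror_complement
  have := bound_low hT hP hC (V := 1 - V) (by linarith) (by linarith) _ M hr (by rw [hv, hVD])
  rwa [candidate_one_sub] at this

end Vale.Agent.P232.Phase1
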