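import Vale.Agent.P232.Phase1.Spec
import Vale.Agent.P232.BandFree.Patch
import Vale.Agent.P232.BandFree.Candidate

/-!
# P232 phase 1: case B
-/

open MeasureTheory Set
open scoped Real

noncomputable section

namespace Vale.Agent.P232.Phase1

/-- Case B. -/
theorem patch : PatchSpec := by
  intro a b V p hs _ hV ha hb hb1
  rw [BandFree.candidate_eq_two_mul_jrel]
  refine mul_le_mul_of_nonneg_left
    (BandFree.patch (b := b) ?_ hs.a_nonneg ha hb hb1 hs.a_le hV) zero_le_two
  intro lam E mu c hmu hc hc0 hc1 h1 h2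
  refine hs.master lam E mu c (fun t => Real.sqrt (1 - c t ^ 2)) hmu hc (by fun_prop) hc0
    (fun t => Real.sqrt_nonneg _) (fun t => ?_) h1 h2
  rw [Real.sq_sqrt (by nlinarith [hc0 t, hc1 t]), add_sub_cancel]

end Vale.Agent.P232.Phase1
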