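import Vale.Agent.P232.Cases
import Vale.Agent.P232.Subgraph

/-!
# P232 phase 1 (`V ≤ 13/50`): statements of the pieces

`a` and `b` are the areas of the two end slices in the direction maximising `a`, `V` is the volume
and `p = M` the relative perimeter; `MasterIneq` is the only link to the geometry.
-/

open MeasureTheory Set Filter
open scoped Real Topology

noncomputable section

namespace Vale.Agent.P232.Phase1

/-- (T1): all one-direction calibrations with multipliers `lam, E, mu`. -/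
def MasterIneq (a b V p : ℝ) : Prop :=
  ∀ (lam E mu : ℝ) (c s : ℝ → ℝ), 0 ≤ mu → Continuous c → Continuous s → (∀ t, 0 ≤ c t) →
    (∀ t, 0 ≤ s t) → (∀ t, c t ^ 2 + s t ^ 2 ≤ 1) →
    (∀ A ∈ Icc a b, lam * A + E ≤ c A * Real.sqrt (π * min A (1 - A))) →
    (∀ A ∈ Icc a b, 1 / π ≤ A → A ≤ 1 - 1 / π → lam * A + E - mu * (A - 1 / π) ≤ c A) →
      lam * V + E - mu * a + ∫ t in a..b, s t ≤ p

/-- The numerical data a reduced set hands to the cases. -/
structure Setting (a b V p : ℝ) : Prop where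
  a_nonneg : 0 ≤ a
  a_le : a ≤ V
  le_b : V ≤ b
  b_le_one : b ≤ 1
  master : MasterIneq a b V p

/-- (T1) for reduced sets, in a direction whose top area dominates the other two. -/
def T1Spec : Prop :=
  ∀ (D : Set R3) (M : ℝ), IsReduced D M → ∀ i j k : Fin 3, i ≠ j → k ≠ i → k ≠ j →
    (∀ l, l = i ∨ l = j ∨ l = k) → ∀ a b au aw : ℝ,
    Tendsto (sliceArea D i j) (𝓝[<] 1) (𝓝 a) → Tendsto (sliceArea D i j) (𝓝[>] 0) (𝓝 b) →
    Tendsto (sliceArea D k j) (𝓝[<] 1) (𝓝 au) → Tendsto (sliceArea D k i) (𝓝[<] 1) (𝓝 aw) →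
    au ≤ a → aw ≤ a → MasterIneq a b (boxVolume D) M

/-- Case B: the analytic patch at the ball. -/
def PatchSpec : Prop :=
  ∀ a b V p : ℝ, Setting a b V p → 0 < V → V ≤ 17 / 100 → a ≤ 1 / 250 → 1 / π ≤ b → b ≤ 1 / 2 →
    candidate V ≤ 2 * p

/-- Case C: the three box regions of the certificate cover. -/
def CoverSpec : Prop :=
  ∀ a b V p : ℝ, Setting a b V p → 0 < V → V ≤ 13 / 50 → 1 / π ≤ b →
    (1 / 250 ≤ a ∨ 1 / 2 ≤ b ∨ 17 / 100 ≤ V) → candidate V ≤ 2 * p

/-- The phase 1 bound. -/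
def BoundSpec : Prop :=
  ∀ V : ℝ, 0 < V → V < 1 → (V ≤ 13 / 50 ∨ 37 / 50 ≤ V) → ReducedBoundAt V

end Vale.Agent.P232.Phase1
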