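import Vale.Agent.P232.Phase1.Assembly
import Vale.Agent.P232.Phase1.Patch
import Vale.Agent.P232.T1.Spec
import Vale.Agent.P232.Reduction
import Vale.Agent.P232.UpperBound

/-!
# P232 phase 1: the bound given the cover, and the profile
-/

open MeasureTheory Set Filter
open scoped Real Topology

noncomputable section

namespace Vale.Agent.P232.Phase1

/-- The phase 1 bound; only the certificate cover is an input. -/
theorem bound_of_cover (hC : CoverSpec) : BoundSpec := bound_of T1.t1Spec patch hC

/-- Given the cover, the profile is the candidate below `13/50` and above `37/50`. -/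
theorem profile_eq_of_cover (hC : CoverSpec) {V : ℝ} (h0 : 0 < V) (h1 : V < 1)
    (hV : V < 13 / 50 ∨ 37 / 50 < V) : profile V = ENNReal.ofReal (candidate V) := by
  refine le_antisymm (profile_le_candidate ⟨h0, h1⟩) (candidate_le_profile_of_eventually ?_)
  rcases hV with hV | hV
  · filter_upwards [Ioo_mem_nhds h0 hV] with W hW
    exact bound_of_cover hC W hW.1 (hW.2.trans (by norm_num)) (Or.inl hW.2.le)
  · filter_upwards [Ioo_mem_nhds hV h1] with W hW
    exact bound_of_cover hC W (lt_trans (by norm_num) hW.1) hW.2 (Or.inr hW.1.le)

/-- Given the cover, every torus set has at least the candidate perimeter in the same range. -/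
theorem candidate_le_perimeter_of_cover (hC : CoverSpec) {E : Set R3} (hE : IsTorusSet E)
    (h0 : 0 < torusVolume E) (h1 : torusVolume E < 1)
    (hV : torusVolume E < 13 / 50 ∨ 37 / 50 < torusVolume E) :
    ENNReal.ofReal (candidate (torusVolume E)) ≤ perimeter E := by
  rw [← profile_eq_of_cover hC h0 h1 hV]
  exact iInf_le_of_le E (iInf_le_of_le hE (iInf_le _ rfl))

end Vale.Agent.P232.Phase1
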