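import Vale.Agent.P232.Phase1.Cover.Data0
import Vale.Agent.P232.Phase1.Cover.Data1
import Vale.Agent.P232.Phase1.Cover.Data2
import Vale.Agent.P232.Phase1.Cover.Data3
import Vale.Agent.P232.Phase1.Cover.Data4
import Vale.Agent.P232.Phase1.Cover.Data5
import Vale.Agent.P232.Phase1.Cover.Data6

/-!
# P232 phase 1: the box cover (case C)
-/

open MeasureTheory Set
open scoped Real

noncomputable section

namespace Vale.Agent.P232.Phase1.Cover

lemma split0 {l r : Tree} {B : Box} {m : ℤ} (h : treeB l { B with v1 := m } = true)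
    (h' : treeB r { B with v0 := m } = true) : treeB (.split 0 m l r) B = true := by
  simp [treeB, h, h']

lemma split1 {l r : Tree} {B : Box} {m : ℤ} (h : treeB l { B with a1 := m } = true)
    (h' : treeB r { B with a0 := m } = true) : treeB (.split 1 m l r) B = true := by
  simp [treeB, h, h']

lemma split2 {l r : Tree} {B : Box} {m : ℤ} (h : treeB l { B with b1 := m } = true)
    (h' : treeB r { B with b0 := m } = true) : treeB (.split 2 m l r) B = true := by
  simp [treeB, h, h']

def root1 : Tree := (.split 0 8520 chunk0 (.split 2 43198 (.split 1 8651 (.split 0 12780 (.split 2 32029 (.split 1 4456 (.split 0 10650 (.split 2 26444 chunk1 chunk2) (.split 2 26444 chunk3 chunk4)) chunk5) chunk6) (.split 2 32029 (.split 1 4456 (.split 0 14910 chunk7 chunk8) (.split 0 14910 chunk9 (.split 2 26444 (.split 1 6553 chunk10 chunk11) chunk12))) (.split 1 4456 chunk13 chunk14))) (.split 0 12780 chunk15 (.split 2 32029 (.split 1 12845 (.split 0 14910 chunk16 (.split 2 26444 (.split 1 10748 (.split 0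 15975 chunk17 (.split 2 23652 chunk18 chunk19)) (.split 0 15975 chunk20 (.split 2 23652 chunk21 chunk22))) chunk23)) (.split 0 14910 chunk24 (.split 2 26444 (.split 1 14942 chunk25 chunk26) chunk27))) chunk28))) chunk29))

theorem root1_ok : treeB root1 ⟨0, 17040, 262, 17040, 20860, 65536⟩ = true :=
  (split0 chunk0_ok (split2 (split1 (split0 (split2 (split1 (split0 (split2 chunk1_ok chunk2_ok) (split2 chunk3_ok chunk4_ok)) chunk5_ok) chunk6_ok) (split2 (split1 (split0 chunk7_ok chunk8_ok) (split0 chunk9_ok (split2 (split1 chunk10_ok chunk11_ok) chunk12_ok))) (split1 chunk13_ok chunk14_ok))) (split0 chunk15_ok (split2 (split1 (split0 chunk16_ok (split2 (split1 (split0 chunk17_ok (split2 chunk18_ok chunk19_ok)) (split0 chunk20_ok (split2 chunk21_ok chunk22_ok))) chunk23_ok)) (split0 chunk24_ok (split2 (split1 chunk25_ok chunk26_ok) chunk27_ok))) chunk28_ok))) chunk29_ok))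

def root2 : Tree := chunk30

theorem root2_ok : treeB root2 ⟨0, 11142, 0, 263, 32768, 65536⟩ = true :=
  chunk30_ok

def root3 : Tree := (.split 2 43198 (.split 2 32029 chunk31 chunk32) chunk33)

theorem root3_ok : treeB root3 ⟨11141, 17040, 0, 263, 20860, 65536⟩ = true :=
  (split2 (split2 chunk31_ok chunk32_ok) chunk33_ok)

/-- **Case C.** -/
theorem coverSpec : CoverSpec := by
  intro a b V p hS h0 hV hb h
  have hV2 : V ≤ 1 / 2 := by linarith
  have hq : toR 20860 ≤ b := q_lo.trans hb
  have hb1 : b ≤ toR 65536 := hS.b_le_one.trans_eq toR_unit.symm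
  have hv : V ≤ toR 17040 := hV.trans (by norm_num [toR])
  have hv0 : toR 0 ≤ V := by simpa [toR] using h0.le
  have ha0 : toR 0 ≤ a := by simpa [toR] using hS.a_nonneg
  by_cases ha : toR 262 ≤ a
  · exact tree_sound _ _ root1_ok hS ⟨⟨hv0, hv⟩, ⟨ha, hS.a_le.trans hv⟩, hq, hb1⟩ hV2
  have ha' : a ≤ toR 263 := (le_of_not_ge ha).trans (toR_le.2 (by norm_num))
  have hnot : ¬ (1 : ℝ) / 250 ≤ a := fun h' => ha (le_trans (by norm_num [toR]) h')
  by_cases hV17 : 17 / 100 ≤ V
  · exact tree_sound _ _ root3_ok hS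
      ⟨⟨le_trans (by norm_num [toR]) hV17, hv⟩, ⟨ha0, ha'⟩, hq, hb1⟩ hV2
  have hbh : (1 : ℝ) / 2 ≤ b := by
    rcases h with h | h | h
    · exact absurd h hnot
    · exact h
    · exact absurd h hV17
  exact tree_sound _ _ root2_ok hS
    ⟨⟨hv0, (le_of_not_ge hV17).trans (by norm_num [toR])⟩, ⟨ha0, ha'⟩,
      le_trans (by norm_num [toR]) hbh, hb1⟩ hV2

end Vale.Agent.P232.Phase1.Cover
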