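import Vale.Agent.P232.BandFree.High
import Vale.Agent.P232.BandFree.Candidate
import Vale.Agent.P232.Phase1.Spec

/-!
# P232 phase 1, case C: calibrations with the band budget over triangles of ranges

With `m(A) = min(A, 1 - A, q + κ (A - q))`, `q ≤ 1/π`, `0 ≤ κ ≤ 1`, the calibration `g/√(π m)` of an
affine `g ≤ √(π m)` satisfies the two conditions of (T1) with `mu = π κ/2`. As `1 - G²/m` is jointly
concave, the bound over a triangle of ranges `(a, b)` follows from rational corner values and cubic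
forms with nonnegative Bernstein coefficients.
-/

open MeasureTheory Set intervalIntegral
open scoped Real

noncomputable section

namespace Vale.Agent.P232.Phase1.KappaTri

open BandFree (mh Corner cubic_nonneg trap sp piHi sp_le jrel jrel_le_ball jrel_le_tube)

/-- A rational just below `1/π`. -/
def q₀ : ℝ := 3183 / 10000

theorem pi_mul_q₀ : π * q₀ ≤ 1 := by unfold q₀; linarith [Real.pi_lt_d4]

/-- The profile `min(x, 1-x, q + κ(x-q))`. -/
def prof (κ x : ℝ) : ℝ := min (mh x) (q₀ + κ * (x - q₀))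

theorem prof_nonneg {κ x : ℝ} (hκ : κ ∈ Icc (0 : ℝ) 1) (hx : x ∈ Icc (0 : ℝ) 1) : 0 ≤ prof κ x := by
  refine le_min (BandFree.mh_nonneg hx) ?_
  have h1 : 0 ≤ (1 - κ) * q₀ := mul_nonneg (by linarith [hκ.2]) (by norm_num [q₀])
  nlinarith [mul_nonneg hκ.1 hx.1]

theorem prof_concave {κ x y l k : ℝ} (hl : 0 ≤ l) (hk : 0 ≤ k) (hlk : l + k = 1) :
    l * prof κ x + k * prof κ y ≤ prof κ (l * x + k * y) := by
  refine le_min ((add_le_add (mul_le_mul_of_nonneg_left (min_le_left _ _) hl)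
    (mul_le_mul_of_nonneg_left (min_le_left _ _) hk)).trans (BandFree.mh_concave hl hk hlk)) ?_
  calc l * prof κ x + k * prof κ y ≤ l * (q₀ + κ * (x - q₀)) + k * (q₀ + κ * (y - q₀)) :=
        add_le_add (mul_le_mul_of_nonneg_left (min_le_right _ _) hl)
          (mul_le_mul_of_nonneg_left (min_le_right _ _) hk)
    _ = _ := by linear_combination (q₀ - κ * q₀) * hlk

/-- `√(1 - G²/m)`. -/
def Hk (κ x G : ℝ) : ℝ := Real.sqrt (1 - G ^ 2 / prof κ x)

theorem Hk_nonneg (κ x G : ℝ) : 0 ≤ Hk κ x G := Real.sqrt_nonneg _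

theorem Hk_le_one {κ x : ℝ} (G : ℝ) (h : 0 ≤ prof κ x) : Hk κ x G ≤ 1 :=
  Real.sqrt_le_one.2 (sub_le_self _ (by positivity))

/-- Points at which `Hk` is concave. -/
def dom (κ : ℝ) : Set (ℝ × ℝ) := {q | q.1 ∈ Icc (0 : ℝ) 1 ∧ q.2 ^ 2 ≤ prof κ q.1}

theorem convex_dom (κ : ℝ) : Convex ℝ (dom κ) := by
  rintro ⟨x, G⟩ ⟨hx, hG⟩ ⟨y, K⟩ ⟨hy, hK⟩ l k hl hk hlk
  refine ⟨convex_Icc (0 : ℝ) 1 hx hy hl hk hlk, ?_⟩
  simp only [Prod.smul_fst, Prod.smul_snd, Prod.fst_add, Prod.snd_add, smul_eq_mul] at hG hK ⊢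
  refine le_trans ?_ (prof_concave hl hk hlk)
  calc (l * G + k * K) ^ 2 = l * G ^ 2 + k * K ^ 2 - l * k * (G - K) ^ 2 := by
        linear_combination (l * G ^ 2 + k * K ^ 2) * hlk
    _ ≤ l * G ^ 2 + k * K ^ 2 := sub_le_self _ (by positivity)
    _ ≤ _ := add_le_add (mul_le_mul_of_nonneg_left hG hl) (mul_le_mul_of_nonneg_left hK hk)

theorem concaveOn_Hk {κ : ℝ} (hκ : κ ∈ Icc (0 : ℝ) 1) :
    ConcaveOn ℝ (dom κ) fun q => Hk κ q.1 q.2 := by
  refine ⟨convex_dom κ, ?_⟩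
  rintro ⟨x, G⟩ hx ⟨y, K⟩ hy l k hl hk hlk
  have hc := convex_dom κ hx hy hl hk hlk
  simp only [Prod.smul_fst, Prod.smul_snd, Prod.fst_add, Prod.snd_add, smul_eq_mul] at hc ⊢
  have hmx : 0 ≤ prof κ x := prof_nonneg hκ hx.1
  have hmy : 0 ≤ prof κ y := prof_nonneg hκ hy.1
  have hG : G ^ 2 ≤ prof κ x := hx.2
  have hK : K ^ 2 ≤ prof κ y := hy.2
  set P := G ^ 2 / prof κ x with hP
  set Q := K ^ 2 / prof κ y with hQ
  have hP0 : 0 ≤ P := by positivity
  have hQ0 : 0 ≤ Q := by positivity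
  have hP1 : P ≤ 1 := div_le_one_of_le₀ hG hmx
  have hQ1 : Q ≤ 1 := div_le_one_of_le₀ hK hmy
  have eP : G ^ 2 = P * prof κ x := by
    rcases hmx.eq_or_lt with h | h
    · rw [← h] at hG ⊢; linarith [sq_nonneg G]
    · rw [hP, div_mul_cancel₀ _ h.ne']
  have eQ : K ^ 2 = Q * prof κ y := by
    rcases hmy.eq_or_lt with h | h
    · rw [← h] at hK ⊢; linarith [sq_nonneg K]
    · rw [hQ, div_mul_cancel₀ _ h.ne']
  have hcross : 2 * (G * K) ≤ P * prof κ y + Q * prof κ x := by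
    have : (G * K) ^ 2 = (P * prof κ y) * (Q * prof κ x) := by rw [mul_pow, eP, eQ]; ring
    exact (le_abs_self _).trans (abs_le_of_sq_le_sq
      (by nlinarith [sq_nonneg (P * prof κ y - Q * prof κ x)]) (by positivity))
  have hmain : (l * G + k * K) ^ 2 ≤ (l * P + k * Q) * (l * prof κ x + k * prof κ y) := by
    have := mul_le_mul_of_nonneg_left hcross (mul_nonneg hl hk)
    have e : (l * G + k * K) ^ 2 = l * l * G ^ 2 + k * k * K ^ 2 + l * k * (2 * (G * K)) := by ring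
    rw [e, eP, eQ]
    linarith
  have hm := prof_concave (κ := κ) (x := x) (y := y) hl hk hlk
  have hq : (l * G + k * K) ^ 2 / prof κ (l * x + k * y) ≤ l * P + k * Q :=
    div_le_of_le_mul₀ (prof_nonneg hκ hc.1) (by positivity)
      (hmain.trans (mul_le_mul_of_nonneg_left hm (by positivity)))
  refine le_trans ?_ (Real.sqrt_le_sqrt (sub_le_sub_left hq 1))
  apply Real.le_sqrt_of_sq_le
  calc (l * Hk κ x G + k * Hk κ y K) ^ 2 =
        l * Hk κ x G ^ 2 + k * Hk κ y K ^ 2 - l * k * (Hk κ x G - Hk κ y K) ^ 2 := by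
        linear_combination (l * Hk κ x G ^ 2 + k * Hk κ y K ^ 2) * hlk
    _ ≤ l * Hk κ x G ^ 2 + k * Hk κ y K ^ 2 := sub_le_self _ (by positivity)
    _ = _ := by
      rw [Hk, Hk, Real.sq_sqrt (sub_nonneg.2 hP1), Real.sq_sqrt (sub_nonneg.2 hQ1)]
      linear_combination hlk

theorem integrable_Hk {κ l r : ℝ} (hκ : κ ∈ Icc (0 : ℝ) 1) {P : ℝ → ℝ × ℝ} (hP : Measurable P)
    (hlr : l ≤ r) (hmem : ∀ t ∈ Icc l r, (P t).1 ∈ Icc (0 : ℝ) 1) :
    IntervalIntegrable (fun t => Hk κ (P t).1 (P t).2) volume l r := by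
  rw [intervalIntegrable_iff_integrableOn_Ioo_of_le hlr]
  have hmeas : Measurable fun t => Hk κ (P t).1 (P t).2 := by unfold Hk prof mh; fun_prop
  refine IntegrableOn.of_bound measure_Ioo_lt_top hmeas.aestronglyMeasurable 1
    ((ae_restrict_iff' measurableSet_Ioo).2 (Filter.Eventually.of_forall fun t ht => ?_))
  rw [Real.norm_of_nonneg (Hk_nonneg _ _ _)]
  exact Hk_le_one _ (prof_nonneg hκ (hmem t (Ioo_subset_Icc_self ht)))

/-- Admissible corners. -/
structure Valid (κ : ℝ) (Q : Corner) : Prop where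
  a0 : 0 ≤ Q.a
  ab : Q.a ≤ Q.b
  b1 : Q.b ≤ 1
  α0 : 0 ≤ Q.α
  β0 : 0 ≤ Q.β
  αm : Q.α ^ 2 ≤ prof κ Q.a
  βm : Q.β ^ 2 ≤ prof κ Q.b

/-- Mean of `Hk` along the chord of a corner. -/
def Ck (κ : ℝ) (Q : Corner) : ℝ := ∫ t in (0 : ℝ)..1, Hk κ (Q.seg t).1 (Q.seg t).2

theorem Valid.mem {κ : ℝ} {Q : Corner} (h : Valid κ Q) {t : ℝ} (ht : t ∈ Icc (0 : ℝ) 1) :
    Q.seg t ∈ dom κ := by
  rw [Q.seg_eq]
  exact convex_dom κ ⟨⟨h.a0, h.ab.trans h.b1⟩, h.αm⟩ ⟨⟨h.a0.trans h.ab, h.b1⟩, h.βm⟩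
    (by linarith [ht.2]) ht.1 (by ring)

theorem Valid.integrable {κ : ℝ} {Q : Corner} (h : Valid κ Q) (hκ : κ ∈ Icc (0 : ℝ) 1) {l r : ℝ}
    (hl : 0 ≤ l) (hlr : l ≤ r) (hr : r ≤ 1) :
    IntervalIntegrable (fun t => Hk κ (Q.seg t).1 (Q.seg t).2) volume l r :=
  integrable_Hk hκ (by unfold BandFree.Corner.seg; fun_prop) hlr fun t ht =>
    (h.mem ⟨hl.trans ht.1, ht.2.trans hr⟩).1

/-- Rational nodes below the chord profile. -/
def Nodes (κ : ℝ) (Q : Corner) : ℝ → List (ℝ × ℝ) → Prop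
  | t₀, [] => t₀ = 1
  | t₀, (t, r) :: l => t₀ < t ∧ r ^ 2 ≤ 1 - (Q.seg t).2 ^ 2 / prof κ (Q.seg t).1 ∧ Nodes κ Q t l

theorem Nodes.le_one {κ : ℝ} {Q : Corner} :
    ∀ {l : List (ℝ × ℝ)} {t₀ : ℝ}, Nodes κ Q t₀ l → t₀ ≤ 1
  | [], _, h => le_of_eq h
  | (_, _) :: _, _, h => h.1.le.trans h.2.2.le_one

theorem trap_le {κ : ℝ} (hκ : κ ∈ Icc (0 : ℝ) 1) {Q : Corner} (hQ : Valid κ Q) :
    ∀ (l : List (ℝ × ℝ)) (t₀ r₀ : ℝ), 0 ≤ t₀ →
    r₀ ^ 2 ≤ 1 - (Q.seg t₀).2 ^ 2 / prof κ (Q.seg t₀).1 → Nodes κ Q t₀ l →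
      trap t₀ r₀ l ≤ ∫ t in t₀..1, Hk κ (Q.seg t).1 (Q.seg t).2
  | [], t₀, r₀, _, _, h => by simp [BandFree.trap, show t₀ = 1 from h]
  | (t, r) :: l, t₀, r₀, h0, hr₀, ⟨hlt, hr, hn⟩ => by
    have ht0 : 0 ≤ t := h0.trans hlt.le
    have ht1 : t ≤ 1 := hn.le_one
    rw [BandFree.trap, ← integral_add_adjacent_intervals (hQ.integrable hκ h0 hlt.le ht1)
      (hQ.integrable hκ ht0 ht1 le_rfl)]
    refine add_le_add ?_ (trap_le hκ hQ l t r ht0 hr hn)
    set s := (r - r₀) / (t - t₀)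
    have hd : 0 < t - t₀ := sub_pos.2 hlt
    have e : ∫ x in t₀..t, (r₀ - s * t₀ + s * x) = (t - t₀) * (r₀ + r) / 2 := by
      rw [intervalIntegral.integral_add intervalIntegrable_const
        ((by fun_prop : Continuous fun x : ℝ => s * x).intervalIntegrable _ _),
        intervalIntegral.integral_const_mul, intervalIntegral.integral_const, integral_id]
      simp only [s, smul_eq_mul]
      field_simp
      ring
    rw [← e]
    refine integral_mono_on hlt.le ((by fun_prop : Continuous fun x : ℝ =>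
      r₀ - s * t₀ + s * x).intervalIntegrable _ _) (hQ.integrable hκ h0 hlt.le ht1) fun x hx => ?_
    set k := (x - t₀) / (t - t₀)
    have hk : 0 ≤ k := div_nonneg (by linarith [hx.1]) hd.le
    have hk1 : k ≤ 1 := (div_le_one hd).2 (by linarith [hx.2])
    have hxk : Q.seg x = (1 - k) • Q.seg t₀ + k • Q.seg t := by
      have : x = (1 - k) * t₀ + k * t := by simp only [k]; field_simp; ring
      ext <;> simp [BandFree.Corner.seg] <;> rw [this] <;> ring
    have hc := (concaveOn_Hk hκ).2 (hQ.mem ⟨h0, hlt.le.trans ht1⟩) (hQ.mem ⟨ht0, ht1⟩)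
      (sub_nonneg.2 hk1) hk (by ring : 1 - k + k = 1)
    rw [← hxk] at hc
    refine le_trans ?_ hc
    have e2 : r₀ - s * t₀ + s * x = (1 - k) * r₀ + k * r := by simp only [s, k]; field_simp; ring
    rw [e2]
    exact add_le_add (mul_le_mul_of_nonneg_left ((le_abs_self r₀).trans
        ((Real.sqrt_sq_eq_abs r₀).symm.trans_le (Real.sqrt_le_sqrt hr₀))) (sub_nonneg.2 hk1))
      (mul_le_mul_of_nonneg_left ((le_abs_self r).trans
        ((Real.sqrt_sq_eq_abs r).symm.trans_le (Real.sqrt_le_sqrt hr))) hk)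

/-- A certified lower bound for `Ck`. -/
theorem trap_le_C {κ : ℝ} (hκ : κ ∈ Icc (0 : ℝ) 1) {Q : Corner} {c r₀ : ℝ} {l : List (ℝ × ℝ)}
    (hQ : Valid κ Q) (hr₀ : r₀ ^ 2 ≤ 1 - (Q.seg 0).2 ^ 2 / prof κ (Q.seg 0).1)
    (hn : Nodes κ Q 0 l) (hc : c ≤ trap 0 r₀ l) : c ≤ Ck κ Q :=
  hc.trans (trap_le hκ hQ l 0 r₀ le_rfl hr₀ hn)

/-- The calibration `g / √(π m)` in (T1). -/
theorem master_le {a b V p κ u v : ℝ} (hs : Setting a b V p) (hκ : κ ∈ Icc (0 : ℝ) 1)
    (hG : ∀ x ∈ Icc a b, 0 ≤ u + v * x ∧ (u + v * x) ^ 2 ≤ prof κ x) :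
    Real.sqrt π * (u + v * V) - π * κ / 2 * a + (∫ x in a..b, Hk κ x (u + v * x)) ≤ p := by
  refine le_of_forall_pos_le_add fun δ hδ => ?_
  have hπ : 0 < Real.sqrt π := Real.sqrt_pos.2 Real.pi_pos
  set η := δ / Real.sqrt π
  have hη : 0 < η := by positivity
  have hab : a ≤ b := hs.a_le.trans hs.le_b
  set c : ℝ → ℝ := fun x => min 1 (max 0 (u + v * x) / Real.sqrt (max 0 (prof κ x) + η ^ 2))
  set s : ℝ → ℝ := fun x => Real.sqrt (1 - c x ^ 2)
  have hne : ∀ x, Real.sqrt (max 0 (prof κ x) + η ^ 2) ≠ 0 := fun x => by positivity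
  have hc : Continuous c :=
    continuous_const.min (Continuous.div (by fun_prop) (by unfold prof mh; fun_prop) hne)
  have hc0 : ∀ x, 0 ≤ c x := fun x => le_min zero_le_one (by positivity)
  have hc1 : ∀ x, c x ≤ 1 := fun x => min_le_left _ _
  have hc2 : ∀ x, c x ^ 2 + s x ^ 2 ≤ 1 := fun x => by
    have : 0 ≤ 1 - c x ^ 2 := by nlinarith [hc0 x, hc1 x]
    simp [s, Real.sq_sqrt this]
  have hmem : ∀ x ∈ Icc a b, x ∈ Icc (0 : ℝ) 1 := fun x hx =>
    ⟨hs.a_nonneg.trans hx.1, hx.2.trans hs.b_le_one⟩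
  have hpt : ∀ x ∈ Icc a b, Real.sqrt π * (u + v * x - η) ≤ c x * Real.sqrt (π * prof κ x) := by
    intro x hx
    obtain ⟨h2, h3⟩ := hG x hx
    have hm : 0 ≤ prof κ x := prof_nonneg hκ (hmem x hx)
    set r := Real.sqrt (prof κ x)
    set R := Real.sqrt (max 0 (prof κ x) + η ^ 2)
    have hr : r ^ 2 = prof κ x := Real.sq_sqrt hm
    have hR : R ^ 2 = prof κ x + η ^ 2 := by
      rw [Real.sq_sqrt (by positivity), max_eq_right hm]
    have hRpos : 0 < R := lt_of_le_of_ne (Real.sqrt_nonneg _) (hne x).symm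
    have hr0 : 0 ≤ r := Real.sqrt_nonneg _
    have hGr : u + v * x ≤ r := (abs_le_of_sq_le_sq' (by rwa [hr]) hr0).2
    have hRr : R ≤ r + η := by nlinarith
    have hrR : r ≤ R := by nlinarith
    have hce : c x = (u + v * x) / R := by
      show min 1 (max 0 (u + v * x) / R) = _
      rw [max_eq_right h2, min_eq_right ((div_le_one hRpos).2 (hGr.trans hrR))]
    rw [Real.sqrt_mul Real.pi_pos.le, hce]
    refine le_trans (mul_le_mul_of_nonneg_left (c := (u + v * x) / R * r) ?_ hπ.le)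
      (le_of_eq (by ring))
    rw [div_mul_eq_mul_div, le_div_iff₀ hRpos]
    nlinarith [mul_le_mul_of_nonneg_left hRr h2, mul_le_mul_of_nonneg_left (hGr.trans hrR) hη.le]
  have key := hs.master (Real.sqrt π * v) (Real.sqrt π * (u - η)) (π * κ / 2) c s
    (by have := hκ.1; positivity) hc (by fun_prop) hc0 (fun x => Real.sqrt_nonneg _) hc2
    (fun x hx => ?_) (fun x hx hx1 _ => ?_)
  · have hI : ∫ x in a..b, Hk κ x (u + v * x) ≤ ∫ x in a..b, s x := by
      refine integral_mono_on hab (integrable_Hk hκ (P := fun x => (x, u + v * x)) (by fun_prop)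
        hab hmem) ((by fun_prop : Continuous s).intervalIntegrable _ _) fun x hx => ?_
      refine Real.sqrt_le_sqrt (sub_le_sub_left ?_ 1)
      obtain ⟨h2, h3⟩ := hG x hx
      have hm : 0 ≤ prof κ x := prof_nonneg hκ (hmem x hx)
      rcases hm.eq_or_lt with h | h
      · have : u + v * x = 0 := by nlinarith
        simp [c, this]
      calc c x ^ 2 ≤ (max 0 (u + v * x) / Real.sqrt (max 0 (prof κ x) + η ^ 2)) ^ 2 :=
            pow_le_pow_left₀ (hc0 x) (min_le_right _ _) 2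
        _ = (u + v * x) ^ 2 / (prof κ x + η ^ 2) := by
            rw [div_pow, max_eq_right h2, Real.sq_sqrt (by positivity), max_eq_right hm]
        _ ≤ _ := by gcongr; nlinarith
    have e : Real.sqrt π * η = δ := by simp only [η]; field_simp
    linarith
  · refine le_trans (le_of_eq (by ring)) ((hpt x hx).trans (mul_le_mul_of_nonneg_left
      (Real.sqrt_le_sqrt (mul_le_mul_of_nonneg_left (min_le_left _ _) Real.pi_pos.le)) (hc0 x)))
  · have h1 : Real.sqrt (π * prof κ x) ≤ 1 + π * κ / 2 * (x - 1 / π) := by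
      have hx0 : 0 ≤ π * κ / 2 * (x - 1 / π) :=
        mul_nonneg (by have := hκ.1; positivity) (sub_nonneg.2 hx1)
      rw [Real.sqrt_le_left (by linarith)]
      refine (mul_le_mul_of_nonneg_left (min_le_right _ _) Real.pi_pos.le).trans ?_
      have e : π * (π * κ / 2 * (x - 1 / π)) = π * κ / 2 * (π * x - 1) := by field_simp
      have e2 : π * (1 / π) = 1 := by field_simp
      nlinarith [mul_nonneg (sub_nonneg.2 hκ.2) (sub_nonneg.2 pi_mul_q₀),
        sq_nonneg (π * κ / 2 * (x - 1 / π))]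
    have h2 := (hpt x hx).trans (mul_le_mul_of_nonneg_left h1 (hc0 x))
    have hx0 : 0 ≤ π * κ / 2 * (x - 1 / π) :=
      mul_nonneg (by have := hκ.1; positivity) (sub_nonneg.2 hx1)
    nlinarith [mul_le_mul_of_nonneg_right (hc1 x) hx0]

/-- The trilinear form of `ℓ(V) - U (b - a)`. -/
def form (κ : ℝ) (Q : Fin 3 → Corner) (C : Fin 3 → ℝ) (V U : ℝ) (i j k : Fin 3) : ℝ :=
  sp * ((Q i).α * ((Q j).b - V) + (Q i).β * (V - (Q j).a)) +
    ((Q i).b - (Q i).a) * ((Q j).b - (Q j).a) * C k -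
    piHi * κ / 2 * (Q i).a * ((Q j).b - (Q j).a) - U * ((Q i).b - (Q i).a)

/-- All Bernstein coefficients of `form` are nonnegative. -/
def Cert (κ : ℝ) (Q : Fin 3 → Corner) (C : Fin 3 → ℝ) (V U : ℝ) : Prop :=
  let K := form κ Q C V U
  0 ≤ K 0 0 0 ∧ 0 ≤ K 1 1 1 ∧ 0 ≤ K 2 2 2 ∧
    0 ≤ K 0 0 1 + K 0 1 0 + K 1 0 0 ∧ 0 ≤ K 0 0 2 + K 0 2 0 + K 2 0 0 ∧
    0 ≤ K 1 1 0 + K 1 0 1 + K 0 1 1 ∧ 0 ≤ K 1 1 2 + K 1 2 1 + K 2 1 1 ∧
    0 ≤ K 2 2 0 + K 2 0 2 + K 0 2 2 ∧ 0 ≤ K 2 2 1 + K 2 1 2 + K 1 2 2 ∧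
    0 ≤ K 0 1 2 + K 0 2 1 + K 1 0 2 + K 1 2 0 + K 2 0 1 + K 2 1 0

/-- The bound on a triangle above the four lines used for `V ≥ 17/100`. -/
structure CertsHigh (κ : ℝ) (Q : Fin 3 → Corner) (C : Fin 3 → ℝ) : Prop where
  h0 : Cert κ Q C (17 / 100) (21817 / 10000 * (17 / 100) + 36 / 100)
  h1 : Cert κ Q C (182 / 1000) (21817 / 10000 * (182 / 1000) + 36 / 100)
  h1' : Cert κ Q C (182 / 1000) (19817 / 10000 * (182 / 1000) + 3964 / 10000)
  h2 : Cert κ Q C (2189 / 10000) (19817 / 10000 * (2189 / 10000) + 3964 / 10000)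
  h2' : Cert κ Q C (2189 / 10000) (1809 / 1000 * (2189 / 10000) + 4342 / 10000)
  h3 : Cert κ Q C (13 / 50) (1809 / 1000 * (13 / 50) + 4342 / 10000)

/-- The bound on a triangle above the five lines used for `0 ≤ V`. -/
structure CertsAll (κ : ℝ) (Q : Fin 3 → Corner) (C : Fin 3 → ℝ) : Prop where
  h0 : Cert κ Q C 0 (1737 / 10000)
  h1 : Cert κ Q C (1206 / 10000) (34729 / 10000 * (1206 / 10000) + 1737 / 10000)
  h1' : Cert κ Q C (1206 / 10000) (30684 / 10000 * (1206 / 10000) + 2225 / 10000)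
  h2 : Cert κ Q C (1551 / 10000) (30684 / 10000 * (1551 / 10000) + 2225 / 10000)
  h2' : Cert κ Q C (1551 / 10000) (21817 / 10000 * (1551 / 10000) + 36 / 100)
  h3 : Cert κ Q C (182 / 1000) (21817 / 10000 * (182 / 1000) + 36 / 100)
  h3' : Cert κ Q C (182 / 1000) (19817 / 10000 * (182 / 1000) + 3964 / 10000)
  h4 : Cert κ Q C (2189 / 10000) (19817 / 10000 * (2189 / 10000) + 3964 / 10000)
  h4' : Cert κ Q C (2189 / 10000) (1809 / 1000 * (2189 / 10000) + 4342 / 10000)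
  h5 : Cert κ Q C (13 / 50) (1809 / 1000 * (13 / 50) + 4342 / 10000)

/-- A triangle with its corner bounds. -/
structure Tri (κ : ℝ) (Q : Fin 3 → Corner) (C : Fin 3 → ℝ) : Prop where
  κmem : κ ∈ Icc (0 : ℝ) 1
  valid : ∀ i, Valid κ (Q i)
  hC : ∀ i, C i ≤ Ck κ (Q i)

/-- `(a, b)` lies in the triangle with corners `Q`. -/
def InTri (Q : Fin 3 → Corner) (a b : ℝ) : Prop :=
  ∃ l : Fin 3 → ℝ, (∀ i, 0 ≤ l i) ∧ ∑ i, l i = 1 ∧
    (∑ i, l i * (Q i).a) = a ∧ (∑ i, l i * (Q i).b) = b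

/-- Affine interpolation between two certified volumes, above a line dominating `jrel`. -/
theorem Tri.segment {a b V p κ : ℝ} (hs : Setting a b V p) (hab : a < b) {Q : Fin 3 → Corner}
    {C : Fin 3 → ℝ} (T : Tri κ Q C) (hin : InTri Q a b) {W₀ W₁ s t : ℝ} (hW : W₀ < W₁)
    (h0 : W₀ ≤ V) (h1 : V ≤ W₁) (hline : jrel V ≤ s * V + t)
    (c0 : Cert κ Q C W₀ (s * W₀ + t)) (c1 : Cert κ Q C W₁ (s * W₁ + t)) : jrel V ≤ p := by
  obtain ⟨l, hl, hl1, ea, eb⟩ := hin
  set α := ∑ i, l i * (Q i).α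
  set β := ∑ i, l i * (Q i).β
  set Cc := ∑ i, l i * C i
  set d := b - a
  have hd : 0 < d := sub_pos.2 hab
  set M : Corner := ⟨a, b, α, β⟩
  have hseg : ∀ t, M.seg t = ∑ i, l i • (Q i).seg t := fun t => by
    ext
    · simp [BandFree.Corner.seg, M, ← ea, ← eb, Fin.sum_univ_three]; ring
    · simp [BandFree.Corner.seg, M, α, β, Fin.sum_univ_three]; ring
  have hmem : ∀ t ∈ Icc (0 : ℝ) 1, M.seg t ∈ dom κ := fun t ht => by
    rw [hseg]
    exact (convex_dom κ).sum_mem (fun i _ => hl i) hl1 fun i _ => (T.valid i).mem ht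
  have hα : 0 ≤ α := Finset.sum_nonneg fun i _ => mul_nonneg (hl i) (T.valid i).α0
  have hβ : 0 ≤ β := Finset.sum_nonneg fun i _ => mul_nonneg (hl i) (T.valid i).β0
  set u := α - a * ((β - α) / d)
  set v := (β - α) / d
  have hlin : ∀ t, (M.seg t).1 = a + d * t ∧ (M.seg t).2 = u + v * (a + d * t) := fun t =>
    ⟨by simp [BandFree.Corner.seg, M, d]; ring,
      by simp [BandFree.Corner.seg, M, u, v]; field_simp; ring⟩
  have hG : ∀ x ∈ Icc a b, 0 ≤ u + v * x ∧ (u + v * x) ^ 2 ≤ prof κ x := by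
    intro x hx
    set t := (x - a) / d
    have ht : t ∈ Icc (0 : ℝ) 1 :=
      ⟨div_nonneg (by linarith [hx.1]) hd.le, (div_le_one hd).2 (by linarith [hx.2])⟩
    have ex : x = a + d * t := by simp only [t]; field_simp; ring
    refine ⟨?_, ?_⟩
    · have : u + v * x = (1 - t) * α + t * β := by
        simp only [u, v, t]; field_simp; ring
      rw [this]
      exact add_nonneg (mul_nonneg (sub_nonneg.2 ht.2) hα) (mul_nonneg ht.1 hβ)
    · have := (hmem t ht).2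
      rwa [(hlin t).1, (hlin t).2, ← ex] at this
  have hcal := master_le hs T.κmem hG
  have hMi : IntervalIntegrable (fun t => Hk κ (M.seg t).1 (M.seg t).2) volume 0 1 :=
    integrable_Hk T.κmem (by unfold BandFree.Corner.seg; fun_prop) zero_le_one fun t ht =>
      (hmem t ht).1
  have hCle : Cc ≤ Ck κ M := by
    calc Cc ≤ ∑ i, l i * Ck κ (Q i) := Finset.sum_le_sum fun i _ =>
          mul_le_mul_of_nonneg_left (T.hC i) (hl i)
      _ = ∫ t in (0 : ℝ)..1, ∑ i, l i * Hk κ ((Q i).seg t).1 ((Q i).seg t).2 := by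
          rw [intervalIntegral.integral_finsetSum fun i _ =>
            ((T.valid i).integrable T.κmem le_rfl zero_le_one le_rfl).const_mul _]
          simp [Ck, intervalIntegral.integral_const_mul]
      _ ≤ Ck κ M := by
          refine integral_mono_on zero_le_one ?_ hMi fun t ht => ?_
          · have := IntervalIntegrable.sum (Finset.univ : Finset (Fin 3)) fun i _ =>
              ((T.valid i).integrable T.κmem le_rfl zero_le_one le_rfl).const_mul (l i)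
            simpa [Finset.sum_fn] using this
          · rw [hseg t]
            simpa using (concaveOn_Hk T.κmem).le_map_sum (fun i _ => hl i) hl1
              fun i _ => (T.valid i).mem ht
  have hint : ∫ x in a..b, Hk κ x (u + v * x) = d * Ck κ M := by
    have := smul_integral_comp_add_mul (a := (0 : ℝ)) (b := 1)
      (fun x => Hk κ x (u + v * x)) d a
    simp only [smul_eq_mul, mul_zero, add_zero, mul_one] at this
    rw [show a + d = b by ring] at this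
    rw [← this]
    simp [Ck, hlin]
  set ℓ : ℝ → ℝ := fun W =>
    sp * (α * (b - W) + β * (W - a)) + d ^ 2 * Cc - piHi * κ / 2 * a * d
  have hp : ℓ V ≤ p * d := by
    have h1 : sp * (α * (b - V) + β * (V - a)) ≤ Real.sqrt π * (α * (b - V) + β * (V - a)) :=
      mul_le_mul_of_nonneg_right sp_le (add_nonneg (mul_nonneg hα (sub_nonneg.2 hs.le_b))
        (mul_nonneg hβ (sub_nonneg.2 hs.a_le)))
    have h2 : Real.sqrt π * (α * (b - V) + β * (V - a)) = Real.sqrt π * (u + v * V) * d := by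
      simp only [u, v]; field_simp; simp only [d]; ring
    rw [hint] at hcal
    have h3 := mul_le_mul_of_nonneg_right hcal hd.le
    have h4 := mul_le_mul_of_nonneg_left hCle (sq_nonneg d)
    have h5 : π * κ / 2 * a * d ≤ piHi * κ / 2 * a * d := by
      have hπ : π ≤ piHi := by unfold BandFree.piHi; linarith [Real.pi_lt_d4]
      have := mul_le_mul_of_nonneg_right hπ
        (mul_nonneg (mul_nonneg T.κmem.1 hs.a_nonneg) hd.le)
      linarith
    simp only [ℓ]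
    nlinarith
  have hcert : ∀ W U, Cert κ Q C W U → U * d ≤ ℓ W := by
    rintro W U ⟨c0, c1, c2, c3, c4, c5, c6, c7, c8, c9⟩
    have := cubic_nonneg _ l hl c0 c1 c2 c3 c4 c5 c6 c7 c8 c9
    have e : ∑ i, ∑ j, ∑ k, l i * l j * l k * form κ Q C W U i j k = ℓ W - U * d := by
      have h1 : l 2 = 1 - l 0 - l 1 := by
        simp only [Fin.sum_univ_three] at hl1; linarith
      simp only [form, ℓ, α, β, Cc, d, ← ea, ← eb, Fin.sum_univ_three, h1]
      ring
    linarith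
  refine le_of_mul_le_mul_right (le_trans ?_ hp) hd
  refine (mul_le_mul_of_nonneg_right hline hd.le).trans ?_
  set k := (V - W₀) / (W₁ - W₀)
  have hk0 : 0 ≤ k := div_nonneg (by linarith) (by linarith)
  have hk1 : k ≤ 1 := (div_le_one (by linarith)).2 (by linarith)
  have eV : V = (1 - k) * W₀ + k * W₁ := by
    have := (sub_pos.2 hW).ne'
    simp only [k]; field_simp; ring
  have : ℓ V = (1 - k) * ℓ W₀ + k * ℓ W₁ := by simp only [ℓ]; rw [eV]; ring
  rw [this]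
  refine le_trans (le_of_eq ?_) (add_le_add
    (mul_le_mul_of_nonneg_left (hcert _ _ c0) (sub_nonneg.2 hk1))
    (mul_le_mul_of_nonneg_left (hcert _ _ c1) hk0))
  rw [eV]; ring

theorem jrel_le_ball_line {V s t : ℝ} (hV : 0 ≤ V) (hV' : V ≤ 1 / 2) (hs : 0 ≤ s) (ht : 0 ≤ t)
    (h : 2 * piHi / 3 ≤ s ^ 2 * t) : jrel V ≤ s * V + t := by
  refine jrel_le_ball hV hV' (by positivity) ?_
  have hπ : π ≤ piHi := by unfold BandFree.piHi; linarith [Real.pi_lt_d4]
  have h1 : 9 * π / 2 * V ^ 2 ≤ 27 * (s * V / 2) ^ 2 * t := by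
    have := mul_le_mul_of_nonneg_right h (sq_nonneg V)
    have := mul_le_mul_of_nonneg_right hπ (sq_nonneg V)
    nlinarith
  refine h1.trans ?_
  have hX : 0 ≤ s * V / 2 := by positivity
  have e : s * V + t = 2 * (s * V / 2) + t := by ring
  rw [e]
  nlinarith [mul_nonneg (sq_nonneg (s * V / 2 - t))
    (add_nonneg (mul_nonneg (by norm_num : (0 : ℝ) ≤ 8) hX) ht)]

theorem jrel_le_tube_line {V s t : ℝ} (hV : 0 ≤ V) (hV' : V ≤ 1 / 2) (hs : 0 ≤ s) (ht : 0 ≤ t)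
    (h : piHi ≤ 4 * s * t) : jrel V ≤ s * V + t := by
  refine jrel_le_tube hV' ?_
  rw [Real.sqrt_le_left (by positivity)]
  have hπ : π ≤ piHi := by unfold BandFree.piHi; linarith [Real.pi_lt_d4]
  nlinarith [mul_le_mul_of_nonneg_right (hπ.trans h) hV, sq_nonneg (s * V - t)]

theorem CertsAll.bound {a b V p κ : ℝ} (hs : Setting a b V p) (hab : a < b) (hV : V ≤ 13 / 50)
    {Q : Fin 3 → Corner} {C : Fin 3 → ℝ} (T : Tri κ Q C) (hc : CertsAll κ Q C)
    (hin : InTri Q a b) : jrel V ≤ p := by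
  have hV0 : 0 ≤ V := hs.a_nonneg.trans hs.a_le
  have hV2 : V ≤ 1 / 2 := by linarith
  rcases le_total V (1206 / 10000) with h1 | h1
  · exact T.segment hs hab hin (by norm_num) hV0 h1 (jrel_le_ball_line hV0 hV2 (by norm_num)
      (by norm_num) (s := 34729 / 10000) (t := 1737 / 10000) (by norm_num [BandFree.piHi]))
      (by simpa using hc.h0) hc.h1
  rcases le_total V (1551 / 10000) with h2 | h2
  · exact T.segment hs hab hin (by norm_num) h1 h2 (jrel_le_ball_line hV0 hV2 (by norm_num)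
      (by norm_num) (by norm_num [BandFree.piHi])) hc.h1' hc.h2
  rcases le_total V (182 / 1000) with h3 | h3
  · exact T.segment hs hab hin (by norm_num) h2 h3 (jrel_le_tube_line hV0 hV2 (by norm_num)
      (by norm_num) (by norm_num [BandFree.piHi])) hc.h2' hc.h3
  rcases le_total V (2189 / 10000) with h4 | h4
  · exact T.segment hs hab hin (by norm_num) h3 h4 (jrel_le_tube_line hV0 hV2 (by norm_num)
      (by norm_num) (by norm_num [BandFree.piHi])) hc.h3' hc.h4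
  · exact T.segment hs hab hin (by norm_num) h4 hV (jrel_le_tube_line hV0 hV2 (by norm_num)
      (by norm_num) (by norm_num [BandFree.piHi])) hc.h4' hc.h5

theorem CertsHigh.bound {a b V p κ : ℝ} (hs : Setting a b V p) (hab : a < b) (hV : V ≤ 13 / 50)
    (hV1 : 17 / 100 ≤ V) {Q : Fin 3 → Corner} {C : Fin 3 → ℝ} (T : Tri κ Q C)
    (hc : CertsHigh κ Q C) (hin : InTri Q a b) : jrel V ≤ p := by
  have hV0 : 0 ≤ V := hs.a_nonneg.trans hs.a_le
  have hV2 : V ≤ 1 / 2 := by linarith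
  rcases le_total V (182 / 1000) with h3 | h3
  · exact T.segment hs hab hin (by norm_num) hV1 h3 (jrel_le_tube_line hV0 hV2 (by norm_num)
      (by norm_num) (by norm_num [BandFree.piHi])) hc.h0 hc.h1
  rcases le_total V (2189 / 10000) with h4 | h4
  · exact T.segment hs hab hin (by norm_num) h3 h4 (jrel_le_tube_line hV0 hV2 (by norm_num)
      (by norm_num) (by norm_num [BandFree.piHi])) hc.h1' hc.h2
  · exact T.segment hs hab hin (by norm_num) h4 hV (jrel_le_tube_line hV0 hV2 (by norm_num)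
      (by norm_num) (by norm_num [BandFree.piHi])) hc.h2' hc.h3

/-- A rectangle is two triangles. -/
theorem inTri_or {a b a₀ a₁ b₀ b₁ : ℝ} (ha : a ∈ Icc a₀ a₁) (hb : b ∈ Icc b₀ b₁)
    (hlta : a₀ < a₁) (hltb : b₀ < b₁) {Q R : Fin 3 → Corner}
    (hQa : (Q 0).a = a₀ ∧ (Q 1).a = a₁ ∧ (Q 2).a = a₀)
    (hQb : (Q 0).b = b₀ ∧ (Q 1).b = b₀ ∧ (Q 2).b = b₁)
    (hRa : (R 0).a = a₁ ∧ (R 1).a = a₀ ∧ (R 2).a = a₁)
    (hRb : (R 0).b = b₁ ∧ (R 1).b = b₁ ∧ (R 2).b = b₀) :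
    InTri Q a b ∨ InTri R a b := by
  set u := (a - a₀) / (a₁ - a₀)
  set v := (b - b₀) / (b₁ - b₀)
  have hu : u ∈ Icc (0 : ℝ) 1 :=
    ⟨div_nonneg (by linarith [ha.1]) (by linarith),
      (div_le_one (by linarith)).2 (by linarith [ha.2])⟩
  have hv : v ∈ Icc (0 : ℝ) 1 :=
    ⟨div_nonneg (by linarith [hb.1]) (by linarith),
      (div_le_one (by linarith)).2 (by linarith [hb.2])⟩
  have eu : a = a₀ + u * (a₁ - a₀) := by
    simp only [u]; rw [div_mul_cancel₀ _ (sub_pos.2 hlta).ne']; ring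
  have ev : b = b₀ + v * (b₁ - b₀) := by
    simp only [v]; rw [div_mul_cancel₀ _ (sub_pos.2 hltb).ne']; ring
  rcases le_total (u + v) 1 with huv | huv
  · refine Or.inl ⟨![1 - u - v, u, v], ?_, by simp [Fin.sum_univ_three]; ring, ?_, ?_⟩
    · intro i; fin_cases i <;> simp [hu.1, hv.1]; linarith
    · simp [Fin.sum_univ_three, hQa.1, hQa.2.1, hQa.2.2]; rw [eu]; ring
    · simp [Fin.sum_univ_three, hQb.1, hQb.2.1, hQb.2.2]; rw [ev]; ring
  · refine Or.inr ⟨![u + v - 1, 1 - u, 1 - v], ?_, by simp [Fin.sum_univ_three], ?_, ?_⟩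
    · intro i; fin_cases i <;> simp [hu.2, hv.2]; linarith
    · simp [Fin.sum_univ_three, hRa.1, hRa.2.1, hRa.2.2]; rw [eu]; ring
    · simp [Fin.sum_univ_three, hRb.1, hRb.2.1, hRb.2.2]; rw [ev]; ring

end Vale.Agent.P232.Phase1.KappaTri
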