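import Vale.Agent.P232.Phase1.Slab.Data0
import Vale.Agent.P232.Phase1.Slab.Data1
import Vale.Agent.P232.Phase1.Slab.Data2
import Vale.Agent.P232.Phase1.Slab.Data3
import Vale.Agent.P232.Phase1.Slab.Data4
import Vale.Agent.P232.Phase1.Slab.Data5
import Vale.Agent.P232.Phase1.Slab.Data6
import Vale.Agent.P232.Phase1.Slab.Data7
import Vale.Agent.P232.Phase1.Slab.Data8

/-!
# P232 phase 1: the box cover (slab range)
-/

open MeasureTheory Set
open scoped Real

noncomputable section

namespace Vale.Agent.P232.Phase1.Slab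

open Cover

lemma split0 {l r : Tree} {B : Box} {m : ℤ} (h : treeS l { B with v1 := m } = true)
    (h' : treeS r { B with v0 := m } = true) : treeS (.split 0 m l r) B = true := by
  simp [treeS, h, h']

lemma split1 {l r : Tree} {B : Box} {m : ℤ} (h : treeS l { B with a1 := m } = true)
    (h' : treeS r { B with a0 := m } = true) : treeS (.split 1 m l r) B = true := by
  simp [treeS, h, h']

lemma split2 {l r : Tree} {B : Box} {m : ℤ} (h : treeS l { B with b1 := m } = true)
    (h' : treeS r { B with b0 := m } = true) : treeS (.split 2 m l r) B = true := by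
  simp [treeS, h, h']

def root1 : Tree := (.split 1 20861 (.split 2 44675 (.split 1 10463 chunk0 (.split 0 28180 (.split 2 32767 (.split 1 15662 (.split 0 25886 (.split 2 26813 chunk1 (.split 1 13062 chunk2 (.split 0 24739 (.split 2 29790 chunk3 chunk4) chunk5))) chunk6) (.split 0 25886 (.split 2 26813 (.split 1 18261 chunk7 (.split 0 24739 (.split 2 23836 chunk8 chunk9) chunk10)) (.split 1 18261 (.split 0 24739 (.split 2 29790 (.split 1 16961 (.split 0 24165 (.split 2 28301 chunk11 (.split 1 16311 chunk12 chunk13)) chunk14) (.split 0 24165 (.split 2 28301 chunk15 chunk16) chunk17)) (.split 1 16961 chunk18 chunk19)) chunk20) (.split 0 24739 chunk21 chunk22))) chunk23)) chunk24) chunk25)) (.split 1 10463 (.split 0 28180 (.split 2 55105 chunk26 (.split 1 5264 (.split 0 25886 chunk27 chunk28) chunk29)) (.split 2 55105 chunk30 (.split 1 5264 (.split 0 30474 (.split 2 60320 chunk31 chunk32) (.split 2 60320 chunk33 (.split 1 2664 chunk34 chunk35))) chunk36))) chunk37)) chunk38)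

theorem root1_ok : treeS root1 ⟨23592, 32768, 65, 32768, 20860, 65536⟩ = true :=
  (split1 (split2 (split1 chunk0_ok (split0 (split2 (split1 (split0 (split2 chunk1_ok (split1 chunk2_ok (split0 (split2 chunk3_ok chunk4_ok) chunk5_ok))) chunk6_ok) (split0 (split2 (split1 chunk7_ok (split0 (split2 chunk8_ok chunk9_ok) chunk10_ok)) (split1 (split0 (split2 (split1 (split0 (split2 chunk11_ok (split1 chunk12_ok chunk13_ok)) chunk14_ok) (split0 (split2 chunk15_ok chunk16_ok) chunk17_ok)) (split1 chunk18_ok chunk19_ok)) chunk20_ok) (split0 chunk21_ok chunk22_ok))) chunk23_ok)) chunk24_ok) chunk25_ok)) (split1 (split0 (split2 chunk26_ok (split1 (split0 chunk27_ok chunk28_ok) chunk29_ok)) (split2 chunk30_ok (split1 (split0 (split2 chunk31_ok chunk32_ok) (split2 chunk33_ok (split1 chunk34_ok chunk35_ok))) chunk36_ok))) chunk37_ok)) chunk38_ok)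

def root2 : Tree := (.split 2 44675 chunk39 (.split 0 28180 (.split 2 55073 chunk40 (.split 0 25886 chunk41 chunk42)) chunk43))

theorem root2_ok : treeS root2 ⟨23592, 32768, 0, 66, 20860, 65471⟩ = true :=
  (split2 chunk39_ok (split0 (split2 chunk40_ok (split0 chunk41_ok chunk42_ok)) chunk43_ok))

/-- **The slab cover**: everything but the corner `a < 1/1000`, `999/1000 < b`. -/
theorem slabCover {a b V p : ℝ} (hS : Setting a b V p) (hV : 9 / 25 ≤ V) (hV2 : V ≤ 1 / 2)
    (h : 1 / 1000 ≤ a ∨ b ≤ 999 / 1000) : candidate V ≤ 2 * p := by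
  have hb0 : toR 20860 ≤ b := (le_trans (by norm_num [toR]) hV).trans hS.le_b
  have hb1 : b ≤ toR 65536 := hS.b_le_one.trans_eq toR_unit.symm
  have hv0 : toR 23592 ≤ V := le_trans (by norm_num [toR]) hV
  have hv : V ≤ toR 32768 := hV2.trans (by norm_num [toR])
  have ha0 : toR 0 ≤ a := by simpa [toR] using hS.a_nonneg
  by_cases ha : toR 65 ≤ a
  · exact treeS_sound _ _ root1_ok hS ⟨⟨hv0, hv⟩, ⟨ha, hS.a_le.trans hv⟩, hb0, hb1⟩ hV2
  have hb : b ≤ 999 / 1000 := by
    rcases h with h | h
    · exact absurd (le_trans (by norm_num [toR]) h) ha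
    · exact h
  exact treeS_sound _ _ root2_ok hS
    ⟨⟨hv0, hv⟩, ⟨ha0, (le_of_not_ge ha).trans (toR_le.2 (by norm_num))⟩, hb0,
      hb.trans (by norm_num [toR])⟩ hV2

end Vale.Agent.P232.Phase1.Slab
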