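import Vale.Agent.P232.Phase1.KappaTri

/-!
# P232: the corner of the slab range

Top area at most `1/1000`, bottom area at least `999/1000`, `V ∈ [9/25, 1/2]`: the calibration with
`κ = 0` (no band budget) gives `p ≥ 1`.
-/

open MeasureTheory Set
open scoped Real

noncomputable section

namespace Vale.Agent.P232.Phase1

namespace SlabCorner

open KappaTri
open BandFree (Corner)

/-- A corner of the rectangle. -/
def qA : Corner := ⟨0, 999 / 1000, 0, 31 / 1000⟩

theorem vA : Valid 0 qA := by constructor <;> norm_num [qA, prof, q₀, BandFree.mh, min_def]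

theorem cA : 4979 / 5000 ≤ Ck 0 qA := trap_le_C (by norm_num) vA (r₀ := 1)
  (l := [(1 / 1000, 9999 / 10000), (1 / 250, 9999 / 10000), (1 / 50, 9999 / 10000), (1 / 10, 9999 / 10000), (1 / 2, 2499 / 2500), (9 / 10, 9961 / 10000), (49 / 50, 9777 / 10000), (249 / 250, 1799 / 2000), (999 / 1000, 1803 / 2500), (1, 987 / 5000)])
  (by norm_num [qA, prof, q₀, BandFree.mh, min_def, BandFree.Corner.seg])
  (by norm_num [Nodes, qA, prof, q₀, BandFree.mh, min_def, BandFree.Corner.seg])
  (by norm_num [BandFree.trap])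

/-- A corner of the rectangle. -/
def qB : Corner := ⟨1 / 1000, 999 / 1000, 31 / 1000, 31 / 1000⟩

theorem vB : Valid 0 qB := by constructor <;> norm_num [qB, prof, q₀, BandFree.mh, min_def]

theorem cB : 9909 / 10000 ≤ Ck 0 qB := trap_le_C (by norm_num) vB (r₀ := 987 / 5000)
  (l := [(1 / 1000, 1801 / 2500), (1 / 250, 4493 / 5000), (1 / 50, 1221 / 1250), (1 / 10, 622 / 625), (1 / 2, 624 / 625), (9 / 10, 622 / 625), (49 / 50, 1221 / 1250), (249 / 250, 4493 / 5000), (999 / 1000, 1801 / 2500), (1, 987 / 5000)])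
  (by norm_num [qB, prof, q₀, BandFree.mh, min_def, BandFree.Corner.seg])
  (by norm_num [Nodes, qB, prof, q₀, BandFree.mh, min_def, BandFree.Corner.seg])
  (by norm_num [BandFree.trap])

/-- A corner of the rectangle. -/
def qC : Corner := ⟨0, 1, 0, 0⟩

theorem vC : Valid 0 qC := by constructor <;> norm_num [qC, prof, q₀, BandFree.mh, min_def]

theorem cC : 1 ≤ Ck 0 qC := trap_le_C (by norm_num) vC (r₀ := 1)
  (l := [(1 / 1000, 1), (1 / 250, 1), (1 / 50, 1), (1 / 10, 1), (1 / 2, 1), (9 / 10, 1), (49 / 50, 1), (249 / 250, 1), (999 / 1000, 1), (1, 1)])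
  (by norm_num [qC, prof, q₀, BandFree.mh, min_def, BandFree.Corner.seg])
  (by norm_num [Nodes, qC, prof, q₀, BandFree.mh, min_def, BandFree.Corner.seg])
  (by norm_num [BandFree.trap])

/-- A corner of the rectangle. -/
def qD : Corner := ⟨1 / 1000, 1, 31 / 1000, 0⟩

theorem vD : Valid 0 qD := by constructor <;> norm_num [qD, prof, q₀, BandFree.mh, min_def]

theorem cD : 4979 / 5000 ≤ Ck 0 qD := trap_le_C (by norm_num) vD (r₀ := 987 / 5000)
  (l := [(1 / 1000, 1803 / 2500), (1 / 250, 1799 / 2000), (1 / 50, 9777 / 10000), (1 / 10, 9961 / 10000), (1 / 2, 2499 / 2500), (9 / 10, 9999 / 10000), (49 / 50, 9999 / 10000), (249 / 250, 9999 / 10000), (999 / 1000, 9999 / 10000), (1, 1)])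
  (by norm_num [qD, prof, q₀, BandFree.mh, min_def, BandFree.Corner.seg])
  (by norm_num [Nodes, qD, prof, q₀, BandFree.mh, min_def, BandFree.Corner.seg])
  (by norm_num [BandFree.trap])

theorem tri_abc : Tri 0 ![qA, qB, qC] ![4979 / 5000, 9909 / 10000, 1] where
  κmem := by norm_num
  valid i := by fin_cases i <;> simp [vA, vB, vC]
  hC i := by fin_cases i <;> simp [cA, cB, cC]

theorem cert_abc :
    Cert 0 ![qA, qB, qC] ![4979 / 5000, 9909 / 10000, 1] (9 / 25) 1 ∧ Cert 0 ![qA, qB, qC] ![4979 / 5000, 9909 / 10000, 1] (1 / 2) 1 :=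
  ⟨by (simp only [Cert, form, Matrix.cons_val, Matrix.cons_val_zero, Matrix.cons_val_one]; norm_num [BandFree.sp, BandFree.piHi, qA, qB, qC]), by (simp only [Cert, form, Matrix.cons_val, Matrix.cons_val_zero, Matrix.cons_val_one]; norm_num [BandFree.sp, BandFree.piHi, qA, qB, qC])⟩

theorem tri_dcb : Tri 0 ![qD, qC, qB] ![4979 / 5000, 1, 9909 / 10000] where
  κmem := by norm_num
  valid i := by fin_cases i <;> simp [vD, vC, vB]
  hC i := by fin_cases i <;> simp [cD, cC, cB]

theorem cert_dcb :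
    Cert 0 ![qD, qC, qB] ![4979 / 5000, 1, 9909 / 10000] (9 / 25) 1 ∧ Cert 0 ![qD, qC, qB] ![4979 / 5000, 1, 9909 / 10000] (1 / 2) 1 :=
  ⟨by (simp only [Cert, form, Matrix.cons_val, Matrix.cons_val_zero, Matrix.cons_val_one]; norm_num [BandFree.sp, BandFree.piHi, qD, qC, qB]), by (simp only [Cert, form, Matrix.cons_val, Matrix.cons_val_zero, Matrix.cons_val_one]; norm_num [BandFree.sp, BandFree.piHi, qD, qC, qB])⟩

end SlabCorner

/-- The slab corner. -/
theorem slabPatch {a b V p : ℝ} (hs : Setting a b V p) (hV : 9 / 25 ≤ V) (hV2 : V ≤ 1 / 2)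
    (ha : a ≤ 1 / 1000) (hb : 999 / 1000 ≤ b) : candidate V ≤ 2 * p := by
  rw [BandFree.candidate_eq_two_mul_jrel]
  refine mul_le_mul_of_nonneg_left ?_ zero_le_two
  have hab : a < b := by linarith
  have hline : BandFree.jrel V ≤ 0 * V + 1 := by simpa using BandFree.jrel_le_one V
  have hcases := KappaTri.inTri_or (a₀ := 0) (a₁ := 1 / 1000) (b₀ := 999 / 1000) (b₁ := 1)
    (Q := ![SlabCorner.qA, SlabCorner.qB, SlabCorner.qC])
    (R := ![SlabCorner.qD, SlabCorner.qC, SlabCorner.qB])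
    ⟨hs.a_nonneg, ha⟩ ⟨hb, hs.b_le_one⟩ (by norm_num) (by norm_num)
    (by simp [SlabCorner.qA, SlabCorner.qB, SlabCorner.qC])
    (by simp [SlabCorner.qA, SlabCorner.qB, SlabCorner.qC])
    (by simp [SlabCorner.qD, SlabCorner.qB, SlabCorner.qC])
    (by simp [SlabCorner.qD, SlabCorner.qB, SlabCorner.qC])
  rcases hcases with hin | hin
  · exact SlabCorner.tri_abc.segment hs hab hin (by norm_num) hV hV2 hline
      (by simpa using SlabCorner.cert_abc.1) (by simpa using SlabCorner.cert_abc.2)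
  · exact SlabCorner.tri_dcb.segment hs hab hin (by norm_num) hV hV2 hline
      (by simpa using SlabCorner.cert_dcb.1) (by simpa using SlabCorner.cert_dcb.2)

end Vale.Agent.P232.Phase1
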