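import Vale.Agent.P232.Phase1.Assembly
import Vale.Agent.P232.Phase1.Slab
import Vale.Agent.P232.Phase1.SlabPatch
import Vale.Agent.P232.T1.Spec

/-!
# P232 phase 1: the reduced bound in the slab range `9/25 ≤ V ≤ 1/2`
-/

open MeasureTheory Set Filter
open scoped Real Topology

noncomputable section

namespace Vale.Agent.P232.Phase1

/-- The slab bound: cover and corner patch in the direction of the largest top area. -/
theorem bound_slab {V : ℝ} (h0 : 9 / 25 ≤ V) (h1 : V ≤ 1 / 2) : ReducedBoundAt V := by
  intro D M h hV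
  subst hV
  obtain ⟨⟨i, j⟩, hmem, hmax⟩ :=
    (Finset.univ.filter fun q : Fin 3 × Fin 3 => q.1 ≠ q.2).exists_max_image
      (fun q => endTop D q.1 q.2) ⟨(0, 1), by simp⟩
  have hij : i ≠ j := (Finset.mem_filter.1 hmem).2
  obtain ⟨k, hki, hkj, hall⟩ := exists_third hij
  have hset : Setting (endTop D i j) (endBot D i j) (boxVolume D) M :=
    ⟨endTop_nonneg h.down, (ends_volume h.down h.subset h.measurable hij).1,
      (ends_volume h.down h.subset h.measurable hij).2, endBot_le_one h.down,
      T1.t1Spec D M h i j k hij hki hkj hall _ _ _ _ (tendsto_ends h.down).1 (tendsto_ends h.down).2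
        (tendsto_ends h.down).1 (tendsto_ends h.down).1
        (hmax (k, j) (by simp [hkj])) (hmax (k, i) (by simp [hki]))⟩
  by_cases hc : 1 / 1000 ≤ endTop D i j ∨ endBot D i j ≤ 999 / 1000
  · exact Slab.slabCover hset h0 h1 hc
  · obtain ⟨ha, hb⟩ := not_or.1 hc
    exact slabPatch hset h0 h1 (le_of_not_ge ha) (le_of_not_ge hb)

end Vale.Agent.P232.Phase1
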